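import Mathlib

/-! Dimension shifting along a chain of syzygies. -/

open CategoryTheory Abelian

namespace P195

variable {A : Type} [Ring A]

/-- All classes in `Ext X Y m` vanish. -/
def Z (X Y : ModuleCat.{0} A) (m : ℕ) : Prop := ∀ e : Ext X Y m, e = 0

lemma Z.iso_right {X Y Y' : ModuleCat.{0} A} {m : ℕ} (h : Z X Y m) (i : Y ≅ Y') : Z X Y' m := by
  intro e
  have h' := congrArg (fun u => Ext.comp u (Ext.mk₀ i.hom) (add_zero m))
    (h (e.comp (Ext.mk₀ i.inv) (add_zero m)))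
  simpa [Ext.comp_assoc_of_third_deg_zero, Ext.mk₀_comp_mk₀, Ext.comp_mk₀_id] using h'

lemma Z.iso_left {X X' Y : ModuleCat.{0} A} {m : ℕ} (h : Z X Y m) (i : X ≅ X') : Z X' Y m := by
  intro e
  have h' := congrArg (fun u => (Ext.mk₀ i.inv).comp u (zero_add m))
    (h ((Ext.mk₀ i.hom).comp e (zero_add m)))
  simpa [Ext.mk₀_comp_mk₀_assoc, Ext.mk₀_id_comp] using h'

lemma Z.projective_fg {M Q : ModuleCat.{0} A} {m : ℕ} (h : Z M (ModuleCat.of A A) m)
    [Module.Finite A Q] [Projective Q] : Z M Q m := by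
  classical
  obtain ⟨n, g, hg⟩ := Module.Finite.exists_fin' A Q
  have : Module.Projective A Q := (IsProjective.iff_projective (R := A) Q).2 inferInstance
  obtain ⟨s, hs⟩ := Module.projective_lifting_property g LinearMap.id hg
  let φ : Fin n → (Q ⟶ ModuleCat.of A A) := fun j =>
    ModuleCat.ofHom ((LinearMap.proj j).comp s)
  let ψ : Fin n → (ModuleCat.of A A ⟶ Q) := fun j =>
    ModuleCat.ofHom (g.comp (LinearMap.single A (fun _ : Fin n => A) j))
  have hid : 𝟙 Q = ∑ j, φ j ≫ ψ j := by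
    ext v
    simp [φ, ψ, ModuleCat.hom_sum, ← map_sum, Finset.univ_sum_single]
    exact (LinearMap.congr_fun hs v).symm
  intro e
  rw [← e.comp_mk₀_id, hid, show Ext.mk₀ (∑ j, φ j ≫ ψ j) = ∑ j, Ext.mk₀ (φ j ≫ ψ j) from
    map_sum (Ext.addEquiv₀ (X := Q) (Y := Q)).symm _ _, Ext.comp_sum]
  refine Finset.sum_eq_zero fun j _ => ?_
  rw [← Ext.mk₀_comp_mk₀, ← Ext.comp_assoc_of_second_deg_zero, h (e.comp _ _), Ext.zero_comp]

variable {S : ℕ → ShortComplex (ModuleCat.{0} A)}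

lemma up {M : ModuleCat.{0} A} (hS : ∀ i, (S i).ShortExact) [∀ i, Projective (S i).X₂]
    [∀ i, Module.Finite A (S i).X₂] (φ : ∀ i, (S i).X₁ ≅ (S (i + 1)).X₃)
    (hA : ∀ m, 0 < m → Z M (ModuleCat.of A A) m) {m : ℕ} (hm : 0 < m)
    (h : Z M (S 0).X₃ m) : ∀ i, Z M (S i).X₃ (m + i)
  | 0 => h
  | i + 1 => by
    refine Z.iso_right (fun e => ?_) (φ i)
    obtain ⟨x, hx⟩ := Ext.covariant_sequence_exact₁ M (hS i) e
      (Z.projective_fg (hA _ (by omega)) _) (show (m + i) + 1 = m + (i + 1) by omega)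
    rw [← hx, up hS φ hA hm h i x, Ext.zero_comp]

lemma down (hS : ∀ i, (S i).ShortExact) [∀ i, Projective (S i).X₂]
    (φ : ∀ i, (S i).X₁ ≅ (S (i + 1)).X₃) (a : ℕ) (Y : ModuleCat.{0} A) :
    ∀ (i m : ℕ), 0 < m → Z (S a).X₃ Y (m + i) → Z (S (a + i)).X₃ Y m
  | 0, m, _, h => h
  | i + 1, m, hm, h => by
    have ih := down hS φ a Y i (m + 1) (by omega) (by convert h using 1; omega)
    refine Z.iso_left (fun e => ?_) (φ (a + i))
    obtain ⟨x, hx⟩ := Ext.contravariant_sequence_exact₁ (hS (a + i)) Y e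
      (show 1 + m = m + 1 by omega) (ih _)
    obtain ⟨m', rfl⟩ := Nat.exists_eq_succ_of_ne_zero hm.ne'
    rw [← hx, Ext.eq_zero_of_projective x, Ext.comp_zero]

lemma projective_of_split {T : ShortComplex (ModuleCat.{0} A)} (hT : T.ShortExact)
    [Projective T.X₂] (h : Z T.X₃ T.X₁ 1) : Projective T.X₃ := by
  obtain ⟨x, hx⟩ := Ext.covariant_sequence_exact₃ T.X₃ hT (Ext.mk₀ (𝟙 T.X₃)) (zero_add 1)
    (by rw [Ext.mk₀_id_comp]; exact h _)
  rw [← Ext.mk₀_addEquiv₀_apply x, Ext.mk₀_comp_mk₀] at hx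
  exact Retract.projective ⟨_, T.g, (Ext.mk₀_bijective _ _).1 hx⟩

lemma rigid_shift (hS : ∀ i, (S i).ShortExact) [∀ i, Projective (S i).X₂]
    [∀ i, Module.Finite A (S i).X₂] (φ : ∀ i, (S i).X₁ ≅ (S (i + 1)).X₃)
    (hA : ∀ m, 0 < m → Z (S 0).X₃ (ModuleCat.of A A) m) {m : ℕ} (hm : 0 < m)
    (h : Z (S 0).X₃ (S 0).X₃ m) (i : ℕ) : Z (S i).X₃ (S i).X₃ m := by
  simpa using down hS φ 0 (S i).X₃ i m hm (up hS φ hA hm h i)

lemma projective_of_periodic (hS : ∀ i, (S i).ShortExact) [∀ i, Projective (S i).X₂]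
    [∀ i, Module.Finite A (S i).X₂] [∀ i, Module.Finite A (S i).X₃]
    (φ : ∀ i, (S i).X₁ ≅ (S (i + 1)).X₃)
    (hA : ∀ m, 0 < m → Z (S 0).X₃ (ModuleCat.of A A) m)
    (hM : ∀ m, 0 < m → Z (S 0).X₃ (S 0).X₃ m) {a p : ℕ} (hp : 0 < p)
    (e : (S a).X₃ ≅ (S (a + p)).X₃) : Projective (S 0).X₃ := by
  obtain ⟨q, rfl⟩ := Nat.exists_eq_succ_of_ne_zero hp.ne'
  have h1 : Z (S a).X₃ (S (a + q)).X₁ (1 + q) :=
    ((rigid_shift hS φ hA (by omega) (hM _ (by omega)) a).iso_right e).iso_right (φ (a + q)).symm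
  have base : Projective (S (a + q)).X₃ :=
    projective_of_split (hS _) (down hS φ a _ q 1 one_pos h1)
  suffices ∀ j, Projective (S j).X₃ → Projective (S 0).X₃ from this _ base
  intro j
  induction j with
  | zero => exact id
  | succ j ih =>
    intro hj
    refine ih (projective_of_split (hS j) ?_)
    have hQ : Z (S 0).X₃ (S (j + 1)).X₃ (1 + j) := Z.projective_fg (hA _ (by omega))
    simpa using down hS φ 0 _ j 1 one_pos (hQ.iso_right (φ j).symm)

end P195
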