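import Vale.Agent.P195.Rigid
import Vale.Agent.P195.Syzygy

/-! Rigid modules with boundedly many generators: finitely many isomorphism classes. -/

open CategoryTheory Abelian

namespace P195

variable {A : Type} [Ring A]

/-- The extension of a module by itself attached to a derivation. -/
def Twist {M : ModuleCat.{0} A} (_η : A →+ M →+ M)
    (_h : ∀ a b v, _η (a * b) v = a • _η b v + _η a (b • v)) : Type := M × M

namespace Twist

variable {M : ModuleCat.{0} A} {η : A →+ M →+ M}
  {h : ∀ a b v, η (a * b) v = a • η b v + η a (b • v)}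

instance : AddCommGroup (Twist η h) := inferInstanceAs (AddCommGroup (M × M))

lemma one (h : ∀ a b v, η (a * b) v = a • η b v + η a (b • v)) (v : M) : η 1 v = 0 := by
  have := h 1 1 v
  simpa using this

instance : Module A (Twist η h) where
  smul a p := ((a • p.1 + η a p.2, a • p.2) : M × M)
  one_smul p := Prod.ext (by show (1 : A) • p.1 + η 1 p.2 = p.1; simp [one h]) (one_smul A p.2)
  mul_smul a b p := Prod.ext (by
      show (a * b) • p.1 + η (a * b) p.2 = a • (b • p.1 + η b p.2) + η a (b • p.2)
      rw [h, mul_smul, smul_add]; abel) (mul_smul a b p.2)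
  smul_zero a := Prod.ext (by show a • (0 : M) + η a 0 = 0; simp) (smul_zero a)
  smul_add a p q := Prod.ext (by
      show a • (p.1 + q.1) + η a (p.2 + q.2) = (a • p.1 + η a p.2) + (a • q.1 + η a q.2)
      simp; abel) (smul_add a p.2 q.2)
  add_smul a b p := Prod.ext (by
      show (a + b) • p.1 + η (a + b) p.2 = (a • p.1 + η a p.2) + (b • p.1 + η b p.2)
      simp [add_smul]; abel) (add_smul a b p.2)
  zero_smul p := Prod.ext (by show (0 : A) • p.1 + η 0 p.2 = 0; simp) (zero_smul A p.2)

end Twist

lemma inner_of_rigid {M : ModuleCat.{0} A} (hM : Z M M 1) (η : A →+ M →+ M)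
    (h : ∀ a b v, η (a * b) v = a • η b v + η a (b • v)) :
    ∃ X : M →+ M, ∀ a v, η a v = X (a • v) - a • X v := by
  let i : M →ₗ[A] Twist η h :=
    { toFun := fun v => ((v, 0) : M × M)
      map_add' := fun v w => Prod.ext rfl (add_zero 0).symm
      map_smul' := fun a v => Prod.ext (by show a • v = a • v + η a 0; simp)
        (smul_zero a).symm }
  let q : Twist η h →ₗ[A] M :=
    { toFun := fun p => p.2
      map_add' := fun _ _ => rfl
      map_smul' := fun _ _ => rfl }
  let T : ShortComplex (ModuleCat.{0} A) :=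
    ShortComplex.mk (ModuleCat.ofHom i) (ModuleCat.ofHom q) (by ext v; rfl)
  have hT : T.ShortExact :=
    { exact := by
        rw [ShortComplex.moduleCat_exact_iff]
        rintro p hp
        exact ⟨p.1, Prod.ext rfl (Eq.symm hp)⟩
      mono_f := (ModuleCat.mono_iff_injective _).2 fun v w e => congrArg Prod.fst e
      epi_g := (ModuleCat.epi_iff_surjective _).2 fun v => ⟨((0, v) : M × M), rfl⟩ }
  obtain ⟨x, hx⟩ := Ext.covariant_sequence_exact₃ M hT (Ext.mk₀ (𝟙 M)) (zero_add 1)
    (by rw [Ext.mk₀_id_comp]; exact hM _)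
  rw [← Ext.mk₀_addEquiv₀_apply x, Ext.mk₀_comp_mk₀] at hx
  have hs := (Ext.mk₀_bijective _ _).1 hx
  set s : M ⟶ ModuleCat.of A (Twist η h) := Ext.addEquiv₀ x
  have s2 : ∀ v, (s v).2 = v := fun v => congrArg (fun f : M ⟶ M => f v) hs
  refine ⟨AddMonoidHom.mk' (fun v => (s v).1)
    (fun v w => congrArg Prod.fst (map_add s.hom v w)), fun a v => ?_⟩
  have e : (s (a • v)).1 = a • (s v).1 + η a (s v).2 :=
    congrArg Prod.fst (map_smul s.hom a v)
  rw [s2] at e
  show η a v = (s (a • v)).1 - a • (s v).1
  rw [e]; abel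

theorem exists_iso_of_bounded (k : Type) [Field k] [Algebra k A] [FiniteDimensional k A]
    (K : ℕ → ModuleCat.{0} A) (hr : ∀ i, Z (K i) (K i) 1)
    (hB : ∃ B : ℕ, ∀ N, ∃ i, N ≤ i ∧ ∃ f : (Fin B → A) →ₗ[A] K i, Function.Surjective f) :
    ∃ a p, 0 < p ∧ Nonempty (K a ≅ K (a + p)) := by
  classical
  obtain ⟨B, hB⟩ := hB
  letI : ∀ i, Module k (K i) := fun i => Module.compHom (K i) (algebraMap k A)
  haveI : ∀ i, IsScalarTower k A (K i) := fun i =>
    IsScalarTower.of_algebraMap_smul fun _ _ => rfl
  let G : Set ℕ := {i | ∃ f : (Fin B → A) →ₗ[A] K i, Function.Surjective f}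
  have hG : G.Infinite := by
    refine Set.infinite_of_forall_exists_gt fun N => ?_
    obtain ⟨i, hi, hf⟩ := hB (N + 1)
    exact ⟨i, hf, hi⟩
  haveI : Infinite G := hG.to_subtype
  haveI : ∀ i : G, FiniteDimensional k (K i) := by
    rintro ⟨i, f, hf⟩
    exact Module.Finite.of_surjective (f.restrictScalars k) hf
  let D := Module.finrank k (Fin B → A)
  have hD : ∀ i : G, Module.finrank k (K i) < D + 1 := by
    rintro ⟨i, f, hf⟩
    have h1 := LinearMap.finrank_range_le (f.restrictScalars k)
    have h2 : LinearMap.range (f.restrictScalars k) = ⊤ := LinearMap.range_eq_top.2 hf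
    rw [h2, finrank_top] at h1
    exact Nat.lt_succ_of_le h1
  obtain ⟨d, hd⟩ := Finite.exists_infinite_fiber
    (fun i : G => (⟨Module.finrank k (K i), hD i⟩ : Fin (D + 1)))
  let emb := Infinite.natEmbedding
    ((fun i : G => (⟨Module.finrank k (K i), hD i⟩ : Fin (D + 1))) ⁻¹' {d})
  let idx : ℕ → G := fun j => (emb j).1
  have hidx : ∀ j, Module.finrank k (K (idx j)) = d := fun j => congrArg Fin.val (emb j).2
  let bA := Module.finBasis k A
  let bV := fun j => Module.finBasisOfFinrankEq k (K (idx j)) (hidx j)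
  let ρ : (j : ℕ) → A →ₐ[k] Matrix (Fin d) (Fin d) k := fun j =>
    (LinearMap.toMatrixAlgEquiv (bV j)).toAlgHom.comp (Algebra.lsmul k k (K (idx j)))
  let c := fun s t u => bA.repr (bA s * bA t) u
  let x := fun j s => ρ j (bA s)
  have hρ : ∀ (j : ℕ) (a : A),
      Matrix.toLinAlgEquiv (bV j) (ρ j a) = Algebra.lsmul k k (K (idx j)) a :=
    fun j a => Matrix.toLinAlgEquiv_toMatrixAlgEquiv _ _
  have hx : ∀ j, IsRep c (x j) := by
    intro j s t
    show ρ j (bA s) * ρ j (bA t) = ∑ u, c s t u • ρ j (bA u)
    have := congrArg (ρ j) (bA.sum_repr (bA s * bA t))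
    rw [map_sum] at this
    simp only [map_smul] at this
    exact (map_mul (ρ j) _ _).symm.trans this.symm
  have hrig : ∀ j, IsRigid c (x j) := by
    intro j η hη
    let H : A →ₗ[k] Matrix (Fin d) (Fin d) k := bA.constr k η
    have hH : ∀ s, H (bA s) = η s := fun s => bA.constr_basis k η s
    have hder : ∀ a b, H (a * b) = ρ j a * H b + H a * ρ j b := by
      have e : (LinearMap.mul k A).compr₂ H =
          LinearMap.mk₂ k (fun a b => ρ j a * H b + H a * ρ j b)
            (fun a a' b => by simp [map_add, add_mul]; abel)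
            (fun r a b => by simp [map_smul, smul_add])
            (fun a b b' => by simp [map_add, mul_add]; abel)
            (fun r a b => by simp [map_smul, smul_add]) := by
        refine LinearMap.ext_basis bA bA fun s t => ?_
        show H (bA s * bA t) = ρ j (bA s) * H (bA t) + H (bA s) * ρ j (bA t)
        conv_lhs => rw [← bA.sum_repr (bA s * bA t)]
        simp only [map_sum, map_smul, hH]
        have := hη s t
        rw [sub_add_eq_add_sub, sub_eq_zero] at this
        exact this.symm
      exact fun a b => LinearMap.congr_fun (LinearMap.congr_fun e a) b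
    let L := fun a => Matrix.toLinAlgEquiv (bV j) (H a)
    let η' : A →+ K (idx j) →+ K (idx j) :=
      AddMonoidHom.mk' (fun a => (L a).toAddMonoidHom) (fun a b => by ext v; simp [L])
    obtain ⟨X, hX⟩ := inner_of_rigid (hr (idx j)) η' (fun a b v => by
      have := LinearMap.congr_fun (congrArg (Matrix.toLinAlgEquiv (bV j)) (hder a b)) v
      simpa [η', L, hρ] using this)
    have h1 : H 1 = 0 := by simpa using hder 1 1
    let Xl : K (idx j) →ₗ[k] K (idx j) :=
      { toFun := X
        map_add' := map_add X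
        map_smul' := fun r v => by
          have e := hX (algebraMap k A r) v
          have e0 : η' (algebraMap k A r) v = 0 := by
            simp [η', L, Algebra.algebraMap_eq_smul_one, h1]
          rw [e0, algebraMap_smul, algebraMap_smul] at e
          exact sub_eq_zero.1 e.symm }
    refine ⟨-LinearMap.toMatrixAlgEquiv (bV j) Xl, fun s => ?_⟩
    apply (Matrix.toLinAlgEquiv (bV j)).injective
    refine LinearMap.ext fun v => ?_
    have := hX (bA s) v
    simp only [η', L, AddMonoidHom.mk'_apply, LinearMap.toAddMonoidHom_coe, hH] at this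
    simp [x, hρ, this, Xl]
    abel
  obtain ⟨i, j, hij, X, hX, hXs⟩ := exists_iso_pair c x hx hrig
  have hne : (idx i : ℕ) ≠ idx j := fun h =>
    hij.ne (emb.injective (Subtype.ext (Subtype.ext h)))
  have hu : IsUnit X.det := isUnit_iff_ne_zero.2 hX
  let F := Matrix.toLin (bV i) (bV j) X
  have hcomm : ∀ a, ρ j a * X = X * ρ i a := by
    have e : (LinearMap.mulRight k X).comp (ρ j).toLinearMap
        = (LinearMap.mulLeft k X).comp (ρ i).toLinearMap :=
      bA.ext fun s => hXs s
    exact fun a => LinearMap.congr_fun e a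
  have hF : ∀ (a : A) v, F (a • v) = a • F v := by
    intro a v
    have e : Matrix.toLin (bV j) (bV j) (ρ j a) (F v)
        = F (Matrix.toLin (bV i) (bV i) (ρ i a) v) := by
      have h1 := LinearMap.congr_fun (Matrix.toLin_mul (bV i) (bV j) (bV j) (ρ j a) X) v
      have h2 := LinearMap.congr_fun (Matrix.toLin_mul (bV i) (bV i) (bV j) X (ρ i a)) v
      rw [hcomm a, h2] at h1
      exact h1.symm
    have hi := LinearMap.congr_fun (hρ i a) v
    have hj := LinearMap.congr_fun (hρ j a) (F v)
    simp only [Algebra.lsmul_coe] at hi hj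
    rw [← hi, ← hj]
    exact e.symm
  have hb : Function.Bijective F := by
    refine ⟨Function.LeftInverse.injective (g := Matrix.toLin (bV j) (bV i) X⁻¹) fun v => ?_,
      Function.RightInverse.surjective (g := Matrix.toLin (bV j) (bV i) X⁻¹) fun v => ?_⟩
    · rw [← LinearMap.comp_apply, ← Matrix.toLin_mul, Matrix.nonsing_inv_mul _ hu]; simp
    · rw [← LinearMap.comp_apply, ← Matrix.toLin_mul, Matrix.mul_nonsing_inv _ hu]; simp
  let F' : K (idx i) ≃ₗ[A] K (idx j) :=
    LinearEquiv.ofBijective { toFun := F, map_add' := map_add F, map_smul' := hF } hb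
  rcases Nat.lt_or_lt_of_ne hne with hlt | hlt
  · refine ⟨idx i, idx j - idx i, Nat.sub_pos_of_lt hlt, ?_⟩
    rw [Nat.add_sub_cancel' hlt.le]; exact ⟨F'.toModuleIso⟩
  · refine ⟨idx j, idx i - idx j, Nat.sub_pos_of_lt hlt, ?_⟩
    rw [Nat.add_sub_cancel' hlt.le]; exact ⟨F'.symm.toModuleIso⟩

end P195
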