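import Mathlib

/-!
Finiteness of rigid representations of a finite-dimensional algebra in each dimension:
rigidity gives a Zariski neighbourhood inside the isomorphism class, and polynomial
rings are Noetherian.
-/

open Matrix

namespace P195

variable {k : Type*} [Field k] {n d : ℕ}

/-- `y` satisfies the structure constants `c`. -/
def IsRep (c : Fin n → Fin n → Fin n → k) (y : Fin n → Matrix (Fin d) (Fin d) k) : Prop :=
  ∀ s t, y s * y t = ∑ u, c s t u • y u

/-- Derivations of `y` into itself are inner. -/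
def IsRigid (c : Fin n → Fin n → Fin n → k) (y : Fin n → Matrix (Fin d) (Fin d) k) : Prop :=
  ∀ η : Fin n → Matrix (Fin d) (Fin d) k,
    (∀ s t, y s * η t - ∑ u, c s t u • η u + η s * y t = 0) →
      ∃ X : Matrix (Fin d) (Fin d) k, ∀ s, η s = y s * X - X * y s

/-- Inner derivation map between two representations. -/
def δ₀ (x y : Fin n → Matrix (Fin d) (Fin d) k) :
    Matrix (Fin d) (Fin d) k →ₗ[k] (Fin n → Matrix (Fin d) (Fin d) k) where
  toFun X s := y s * X - X * x s
  map_add' X Y := by funext s; simp [mul_add, add_mul]; abel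
  map_smul' r X := by funext s; simp [mul_smul_comm, smul_mul_assoc, smul_sub]

/-- Derivation defect map between two representations. -/
def δ₁ (c : Fin n → Fin n → Fin n → k) (x y : Fin n → Matrix (Fin d) (Fin d) k) :
    (Fin n → Matrix (Fin d) (Fin d) k) →ₗ[k] (Fin n × Fin n → Matrix (Fin d) (Fin d) k) where
  toFun η p := y p.1 * η p.2 - ∑ u, c p.1 p.2 u • η u + η p.1 * x p.2
  map_add' η ζ := by
    funext p; simp [mul_add, add_mul, Finset.sum_add_distrib]; abel
  map_smul' r η := by
    funext p; simp [mul_smul_comm, smul_mul_assoc, smul_sub, smul_add, Finset.smul_sum,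
      smul_comm _ r]

lemma δ₁_δ₀ {c : Fin n → Fin n → Fin n → k} {x y : Fin n → Matrix (Fin d) (Fin d) k}
    (hx : IsRep c x) (hy : IsRep c y) (X : Matrix (Fin d) (Fin d) k) :
    δ₁ c x y (δ₀ x y X) = 0 := by
  funext p
  obtain ⟨s, t⟩ := p
  have h₁ : ∑ u, c s t u • (y u * X - X * x u) = y s * y t * X - X * (x s * x t) := by
    rw [hy s t, hx s t, Finset.sum_mul, Finset.mul_sum, ← Finset.sum_sub_distrib]
    simp [smul_sub, smul_mul_assoc, mul_smul_comm]
  simp only [δ₁, δ₀, LinearMap.coe_mk, AddHom.coe_mk, Pi.zero_apply, h₁]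
  noncomm_ring

section Generic

variable (R : Type*) [CommRing R] [Algebra k R]
variable {r₀ r₁ : ℕ}
variable (x : Fin n → Matrix (Fin d) (Fin d) k) (c : Fin n → Fin n → Fin n → k)
  (U : Fin r₀ → Matrix (Fin d) (Fin d) k)
  (φ : Fin r₀ → Fin n → Fin d → Fin d → k)
  (W : Fin r₁ → Fin n → Matrix (Fin d) (Fin d) k)
  (ψ : Fin r₁ → Fin n → Fin n → Fin d → Fin d → k)

/-- Scalar extension of a matrix. -/
abbrev inc (A : Matrix (Fin d) (Fin d) k) : Matrix (Fin d) (Fin d) R := A.map (algebraMap k R)

/-- The test matrix for `δ₀`. -/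
def T₀ (y : Fin n → Matrix (Fin d) (Fin d) R) : Matrix (Fin r₀) (Fin r₀) R :=
  Matrix.of fun j l => ∑ s, ∑ a, ∑ b,
    algebraMap k R (φ j s a b) * (y s * inc R (U l) - inc R (U l) * inc R (x s)) a b

/-- The test vector. -/
def V₀ (y : Fin n → Matrix (Fin d) (Fin d) R) : Fin r₀ → R :=
  fun j => ∑ s, ∑ a, ∑ b, algebraMap k R (φ j s a b) * (y s - inc R (x s)) a b

/-- The test matrix for `δ₁`. -/
def T₁ (y : Fin n → Matrix (Fin d) (Fin d) R) : Matrix (Fin r₁) (Fin r₁) R :=
  Matrix.of fun j l => ∑ s, ∑ t, ∑ a, ∑ b, algebraMap k R (ψ j s t a b) *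
    (y s * inc R (W l t) - ∑ u, algebraMap k R (c s t u) • inc R (W l u) + inc R (W l s) * inc R (x t)) a b

/-- The candidate intertwiner. -/
def cand (y : Fin n → Matrix (Fin d) (Fin d) R) : Matrix (Fin d) (Fin d) R :=
  (T₀ R x U φ y).det • 1
    - ∑ l, ((T₀ R x U φ y).adjugate *ᵥ V₀ R x φ y) l • inc R (U l)

/-- The witness function. -/
def wit (y : Fin n → Matrix (Fin d) (Fin d) R) : R :=
  (T₀ R x U φ y).det * (T₁ R x c W ψ y).det * (cand R x U φ y).det

lemma wit_map {R' : Type*} [CommRing R'] [Algebra k R'] (f : R →ₐ[k] R')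
    (y : Fin n → Matrix (Fin d) (Fin d) R) :
    f (wit R x c U φ W ψ y) = wit R' x c U φ W ψ (fun s => (y s).map f) := by
  have h0 : (T₀ R x U φ y).map f = T₀ R' x U φ (fun s => (y s).map f) := by
    ext j l
    simp [T₀, Matrix.mul_apply, map_sum, f.commutes]
  have hv : ∀ j, f (V₀ R x φ y j) = V₀ R' x φ (fun s => (y s).map f) j := by
    intro j; simp [V₀, map_sum, f.commutes]
  have h1 : (T₁ R x c W ψ y).map f = T₁ R' x c W ψ (fun s => (y s).map f) := by
    ext j l
    simp [T₁, Matrix.mul_apply, Matrix.sum_apply, map_sum, f.commutes]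
  have hd0 : f (T₀ R x U φ y).det = (T₀ R' x U φ (fun s => (y s).map f)).det := by
    rw [← h0]; exact RingHom.map_det f.toRingHom _
  have ha : (T₀ R x U φ y).adjugate.map f = (T₀ R' x U φ (fun s => (y s).map f)).adjugate := by
    rw [← h0]; exact RingHom.map_adjugate f.toRingHom _
  have hc : (cand R x U φ y).map f = cand R' x U φ (fun s => (y s).map f) := by
    ext a b
    simp only [cand, ← ha, ← hd0, Matrix.map_apply, Matrix.sub_apply, Matrix.smul_apply,
      Matrix.sum_apply, smul_eq_mul, map_sub, map_mul, map_sum, Matrix.mulVec, dotProduct,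
      Matrix.one_apply, apply_ite f, map_one, map_zero, f.commutes, hv]
  simp only [wit, map_mul, hd0]
  rw [← h1, ← hc]
  congr 1
  · congr 1; exact RingHom.map_det f.toRingHom _
  · exact RingHom.map_det f.toRingHom _

end Generic

@[simp] lemma inc_self (A : Matrix (Fin d) (Fin d) k) : inc k A = A := by
  ext; simp

lemma expand {n : ℕ} (L : (Fin n → Matrix (Fin d) (Fin d) k) →ₗ[k] k)
    (η : Fin n → Matrix (Fin d) (Fin d) k) :
    ∑ s, ∑ a, ∑ b, L (Pi.single s (Matrix.single a b 1)) * η s a b = L η := by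
  have h : η = ∑ s, ∑ a, ∑ b, η s a b • Pi.single s (Matrix.single a b (1 : k)) := by
    conv_lhs => rw [← Finset.univ_sum_single η]
    refine Finset.sum_congr rfl fun s _ => ?_
    refine (congrArg (LinearMap.single k (fun _ : Fin n => Matrix (Fin d) (Fin d) k) s)
      (Matrix.matrix_eq_sum_single (η s))).trans ?_
    simp only [map_sum]
    refine Finset.sum_congr rfl fun a _ => Finset.sum_congr rfl fun b _ => ?_
    rw [LinearMap.coe_single, ← Pi.single_smul, Matrix.smul_single, smul_eq_mul, mul_one]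
  conv_rhs => rw [h]
  simp only [map_sum, map_smul, smul_eq_mul]
  exact Finset.sum_congr rfl fun s _ => Finset.sum_congr rfl fun a _ =>
    Finset.sum_congr rfl fun b _ => mul_comm _ _

lemma expand₂ (L : (Fin n × Fin n → Matrix (Fin d) (Fin d) k) →ₗ[k] k)
    (η : Fin n × Fin n → Matrix (Fin d) (Fin d) k) :
    ∑ s, ∑ t, ∑ a, ∑ b, L (Pi.single (s, t) (Matrix.single a b 1)) * η (s, t) a b = L η := by
  have h : η = ∑ p, ∑ a, ∑ b, η p a b • Pi.single p (Matrix.single a b (1 : k)) := by
    conv_lhs => rw [← Finset.univ_sum_single η]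
    refine Finset.sum_congr rfl fun p _ => ?_
    refine (congrArg (LinearMap.single k (fun _ : Fin n × Fin n => Matrix (Fin d) (Fin d) k) p)
      (Matrix.matrix_eq_sum_single (η p))).trans ?_
    simp only [map_sum]
    refine Finset.sum_congr rfl fun a _ => Finset.sum_congr rfl fun b _ => ?_
    rw [LinearMap.coe_single, ← Pi.single_smul, Matrix.smul_single, smul_eq_mul, mul_one]
  conv_rhs => rw [h]
  simp only [map_sum, map_smul, smul_eq_mul]
  rw [Fintype.sum_prod_type]
  exact Finset.sum_congr rfl fun s _ => Finset.sum_congr rfl fun t _ =>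
    Finset.sum_congr rfl fun a _ => Finset.sum_congr rfl fun b _ => mul_comm _ _

lemma exists_section {V W : Type*} [AddCommGroup V] [Module k V] [AddCommGroup W] [Module k W]
    [FiniteDimensional k V] (f : V →ₗ[k] W) :
    ∃ (v : Fin (Module.finrank k (LinearMap.range f)) → V)
      (L : Fin (Module.finrank k (LinearMap.range f)) → (W →ₗ[k] k)),
      ∀ j l, L j (f (v l)) = if j = l then 1 else 0 := by
  classical
  let B := Module.finBasis k (LinearMap.range f)
  choose v hv using fun l => LinearMap.mem_range.1 (B l).2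
  choose L hL using fun j => LinearMap.exists_extend (B.coord j)
  refine ⟨v, L, fun j l => ?_⟩
  have h := LinearMap.congr_fun (hL j) (B l)
  rw [LinearMap.comp_apply, Submodule.subtype_apply] at h
  rw [hv, h, Module.Basis.coord_apply, Module.Basis.repr_self, Finsupp.single_apply]
  by_cases e : j = l
  · simp [e]
  · simp [e, Ne.symm e]

theorem exists_witness {c : Fin n → Fin n → Fin n → k} {x : Fin n → Matrix (Fin d) (Fin d) k}
    (hx : IsRep c x) (hr : IsRigid c x) :
    ∃ p : MvPolynomial (Fin n × Fin d × Fin d) k,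
      MvPolynomial.eval (fun i => x i.1 i.2.1 i.2.2) p ≠ 0 ∧
      ∀ y : Fin n → Matrix (Fin d) (Fin d) k, IsRep c y →
        MvPolynomial.eval (fun i => y i.1 i.2.1 i.2.2) p ≠ 0 →
          ∃ X : Matrix (Fin d) (Fin d) k, X.det ≠ 0 ∧ ∀ s, y s * X = X * x s := by
  classical
  obtain ⟨U, L, hUL⟩ := exists_section (δ₀ x x)
  obtain ⟨W, M, hWM⟩ := exists_section (δ₁ c x x)
  set φ := fun j s a b => L j (Pi.single s (Matrix.single a b 1)) with hφ
  set ψ := fun j s t a b => M j (Pi.single (s, t) (Matrix.single a b 1)) with hψ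
  have eT₀ : ∀ (y : Fin n → Matrix (Fin d) (Fin d) k) j l,
      T₀ k x U φ y j l = L j (δ₀ x y (U l)) := by
    intro y j l
    rw [← expand (L j)]
    simp [T₀, hφ, δ₀, inc_self, Algebra.algebraMap_self]
    rfl
  have eV : ∀ (y : Fin n → Matrix (Fin d) (Fin d) k) j,
      V₀ k x φ y j = L j (δ₀ x y 1) := by
    intro y j
    rw [← expand (L j)]
    simp [V₀, hφ, δ₀, Algebra.algebraMap_self]
  have eT₁ : ∀ (y : Fin n → Matrix (Fin d) (Fin d) k) j l,
      T₁ k x c W ψ y j l = M j (δ₁ c x y (W l)) := by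
    intro y j l
    rw [← expand₂ (M j)]
    simp [T₁, hψ, δ₁, inc_self, Algebra.algebraMap_self]
    rfl
  let p := wit (MvPolynomial (Fin n × Fin d × Fin d) k) x c U φ W ψ
    (fun s => Matrix.of fun a b => MvPolynomial.X (s, a, b))
  have hp : ∀ y : Fin n → Matrix (Fin d) (Fin d) k,
      MvPolynomial.eval (fun i => y i.1 i.2.1 i.2.2) p = wit k x c U φ W ψ y := by
    intro y
    have := wit_map (MvPolynomial (Fin n × Fin d × Fin d) k) x c U φ W ψ
      (MvPolynomial.aeval fun i => y i.1 i.2.1 i.2.2)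
      (fun s => Matrix.of fun a b => MvPolynomial.X (s, a, b))
    have e : (fun s => (Matrix.of fun a b =>
        (MvPolynomial.X (s, a, b) : MvPolynomial (Fin n × Fin d × Fin d) k)).map
        (MvPolynomial.aeval fun i : Fin n × Fin d × Fin d => y i.1 i.2.1 i.2.2)) = y := by
      funext s; ext a b; simp
    rw [e] at this
    simpa [MvPolynomial.aeval_eq_eval] using this
  refine ⟨p, ?_, fun y hy hne => ?_⟩
  · rw [hp]
    have h0 : T₀ k x U φ x = 1 := by
      ext j l; rw [eT₀, hUL, Matrix.one_apply]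
    have h1 : T₁ k x c W ψ x = 1 := by
      ext j l; rw [eT₁, hWM, Matrix.one_apply]
    have hv : V₀ k x φ x = 0 := by
      funext j; simp [V₀, Algebra.algebraMap_self]
    have hc : cand k x U φ x = 1 := by simp [cand, h0, hv]
    simp [wit, h0, h1, hc]
  · rw [hp] at hne
    simp only [wit, mul_ne_zero_iff] at hne
    obtain ⟨⟨hd0, hd1⟩, hdc⟩ := hne
    refine ⟨cand k x U φ y, hdc, ?_⟩
    -- independence of the images
    have indU : ∀ w : Fin (Module.finrank k (LinearMap.range (δ₀ x x))) → k,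
        (∀ j, L j (δ₀ x y (∑ l, w l • U l)) = 0) → w = 0 := by
      intro w hw
      refine Matrix.eq_zero_of_mulVec_eq_zero hd0 (funext fun j => ?_)
      have := hw j
      simp only [map_sum, map_smul, smul_eq_mul, ← eT₀] at this
      simpa [Matrix.mulVec, dotProduct, mul_comm] using this
    have indW : ∀ w : Fin (Module.finrank k (LinearMap.range (δ₁ c x x))) → k,
        δ₁ c x y (∑ l, w l • W l) = 0 → w = 0 := by
      intro w hw
      refine Matrix.eq_zero_of_mulVec_eq_zero hd1 (funext fun j => ?_)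
      have := congrArg (M j) hw
      simp only [map_sum, map_smul, map_zero, smul_eq_mul, ← eT₁] at this
      simpa [Matrix.mulVec, dotProduct, mul_comm] using this
    have liU : LinearIndependent k (fun l => δ₀ x y (U l)) := by
      rw [Fintype.linearIndependent_iff]
      intro w hw l
      have : δ₀ x y (∑ l, w l • U l) = 0 := by simpa using hw
      exact congrFun (indU w fun j => by rw [this, map_zero]) l
    have liW : LinearIndependent k (fun l => δ₁ c x y (W l)) := by
      rw [Fintype.linearIndependent_iff]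
      intro w hw l
      exact congrFun (indW w (by simpa using hw)) l
    have le₀ : Submodule.span k (Set.range fun l => δ₀ x y (U l))
        ≤ LinearMap.range (δ₀ x y) :=
      Submodule.span_le.2 (by rintro _ ⟨l, rfl⟩; exact ⟨U l, rfl⟩)
    have le₁ : LinearMap.range (δ₀ x y) ≤ LinearMap.ker (δ₁ c x y) := by
      rintro _ ⟨X, rfl⟩; exact δ₁_δ₀ hx hy X
    have hker : LinearMap.ker (δ₁ c x x) = LinearMap.range (δ₀ x x) := by
      refine le_antisymm (fun η hη => ?_) ?_
      · obtain ⟨X, hX⟩ := hr η (fun s t => congrFun (LinearMap.mem_ker.1 hη) (s, t))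
        exact ⟨X, (funext hX).symm⟩
      · rintro _ ⟨X, rfl⟩; exact δ₁_δ₀ hx hx X
    have rn := LinearMap.finrank_range_add_finrank_ker (δ₁ c x x)
    rw [hker] at rn
    have rn' := LinearMap.finrank_range_add_finrank_ker (δ₁ c x y)
    have hW : Module.finrank k (LinearMap.range (δ₁ c x x))
        ≤ Module.finrank k (LinearMap.range (δ₁ c x y)) := by
      have h := Submodule.finrank_mono (Submodule.span_le.2
        (show Set.range (fun l => δ₁ c x y (W l)) ⊆ LinearMap.range (δ₁ c x y) by
          rintro _ ⟨l, rfl⟩; exact ⟨W l, rfl⟩))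
      rwa [finrank_span_eq_card liW, Fintype.card_fin] at h
    have hU : Module.finrank k (Submodule.span k (Set.range fun l => δ₀ x y (U l)))
        = Module.finrank k (LinearMap.range (δ₀ x x)) := by
      rw [finrank_span_eq_card liU, Fintype.card_fin]
    have eq : Submodule.span k (Set.range fun l => δ₀ x y (U l))
        = LinearMap.range (δ₀ x y) :=
      le_antisymm le₀ (le_of_eq (Submodule.eq_of_le_of_finrank_le (le₀.trans le₁)
        (by omega) ▸ rfl) |>.trans' le₁)
    have hX : cand k x U φ y = (T₀ k x U φ y).det • (1 : Matrix (Fin d) (Fin d) k)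
        - ∑ l, ((T₀ k x U φ y).adjugate *ᵥ V₀ k x φ y) l • U l := by
      simp [cand, Algebra.algebraMap_self]
    have hz : ∀ j, L j (δ₀ x y (cand k x U φ y)) = 0 := by
      intro j
      rw [hX]
      simp only [map_sub, map_sum, map_smul, smul_eq_mul, ← eT₀, ← eV]
      have := congrFun (show T₀ k x U φ y *ᵥ ((T₀ k x U φ y).adjugate *ᵥ V₀ k x φ y)
          = (T₀ k x U φ y).det • V₀ k x φ y by
        rw [Matrix.mulVec_mulVec, Matrix.mul_adjugate, Matrix.smul_mulVec, Matrix.one_mulVec]) j
      simp only [Matrix.mulVec, dotProduct, Pi.smul_apply, smul_eq_mul] at this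
      rw [← this, sub_eq_zero]
      exact Finset.sum_congr rfl fun l _ => mul_comm _ _
    have hmem : δ₀ x y (cand k x U φ y)
        ∈ Submodule.span k (Set.range fun l => δ₀ x y (U l)) := by
      rw [eq]; exact ⟨_, rfl⟩
    obtain ⟨w, hw⟩ := Submodule.mem_span_range_iff_exists_fun k |>.1 hmem
    have hw' : δ₀ x y (∑ l, w l • U l) = δ₀ x y (cand k x U φ y) := by simpa using hw
    have hw0 : w = 0 := indU w fun j => by rw [hw', hz]
    have h0 : δ₀ x y (cand k x U φ y) = 0 := by rw [← hw', hw0]; simp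
    intro s
    exact sub_eq_zero.1 (congrFun h0 s)

theorem exists_iso_pair (c : Fin n → Fin n → Fin n → k)
    (x : ℕ → Fin n → Matrix (Fin d) (Fin d) k)
    (hx : ∀ i, IsRep c (x i)) (hr : ∀ i, IsRigid c (x i)) :
    ∃ i j, i < j ∧ ∃ X : Matrix (Fin d) (Fin d) k, X.det ≠ 0 ∧
      ∀ s, x j s * X = X * x i s := by
  classical
  let ev := fun j => MvPolynomial.eval (fun i : Fin n × Fin d × Fin d => x j i.1 i.2.1 i.2.2)
  let I : ℕ →o Ideal (MvPolynomial (Fin n × Fin d × Fin d) k) :=
    ⟨fun m => ⨅ j, ⨅ (_ : m ≤ j), RingHom.ker (ev j), fun a b hab =>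
      le_iInf₂ fun j hj => iInf₂_le j (hab.trans hj)⟩
  obtain ⟨N, hN⟩ := monotone_stabilizes_iff_noetherian.2
    (inferInstance : IsNoetherianRing (MvPolynomial (Fin n × Fin d × Fin d) k)) I
  obtain ⟨p, hp0, hp⟩ := exists_witness (hx N) (hr N)
  by_contra! hcon
  have hmem : p ∈ I (N + 1) := by
    refine (Submodule.mem_iInf _).2 fun j => (Submodule.mem_iInf _).2 fun hj => RingHom.mem_ker.2 ?_
    by_contra hne
    obtain ⟨X, hX, hXs⟩ := hp (x j) (hx j) hne
    obtain ⟨s, hs⟩ := hcon N j hj X hX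
    exact hs (hXs s)
  rw [← hN (N + 1) (Nat.le_succ N)] at hmem
  replace hmem : ∀ j, N ≤ j → ev j p = 0 := fun j hj =>
    RingHom.mem_ker.1 ((Submodule.mem_iInf _).1 ((Submodule.mem_iInf _).1 hmem j) hj)
  exact hp0 (hmem N le_rfl)

end P195
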